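import Mathlib

/-!
# Balanced arrays of columns (the array criterion for Euclidean Ramsey sets)
-/

namespace Vale.Agent.Lib.P058C

/-- The array condition with gain `W`: there are finite multisets `P, N` of columns in `ℝ^k` with the
same law at every index `i` (the multiset of `i`-th entries of `P` equals that of `N`), such that the
squared distances between the rows of `N` are `g` times `d2` and those of `P` are `W * g` times
`d2`, for some `g > 0`. Here `d2 i j` is the target squared distance of points `i, j`. -/
def ArrayCond {k : ℕ} (d2 : Fin k → Fin k → ℝ) (W : ℝ) : Prop :=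
  ∃ (P N : Multiset (Fin k → ℝ)) (g : ℝ), 0 < g ∧
    (∀ i, P.map (fun t => t i) = N.map (fun t => t i)) ∧
    (∀ i j, (N.map (fun t => (t i - t j) ^ 2)).sum = g * d2 i j) ∧
    (∀ i j, (P.map (fun t => (t i - t j) ^ 2)).sum = W * g * d2 i j)

end Vale.Agent.Lib.P058C
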