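import Mathlib

/-!
# Farkas' lemma over `ℚ` for an arbitrary `ℚ`-module (Bartl style induction)
-/

namespace Vale.Agent.Lib.P058C

/-- Farkas over `ℚ`, in arbitrary `ℚ`-modules. -/
theorem farkas_rat {V ι : Type*} [AddCommGroup V] [Module ℚ V] (s : Finset ι) (v : ι → V) (w : V) :
    (∃ n : ι → ℚ, (∀ i ∈ s, 0 ≤ n i) ∧ ∑ i ∈ s, n i • v i = w) ∨
      ∃ f : V →ₗ[ℚ] ℚ, (∀ i ∈ s, 0 ≤ f (v i)) ∧ f w < 0 := by
  classical
  induction s using Finset.induction_on generalizing v w with
  | empty =>
    by_cases hw : w = 0
    · exact Or.inl ⟨fun _ => 0, by simp, by simp [hw]⟩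
    · right
      have h : ∃ f : V →ₗ[ℚ] ℚ, f w ≠ 0 := by
        by_contra hcon
        push Not at hcon
        exact hw ((Module.forall_dual_apply_eq_zero_iff ℚ w).mp hcon)
      obtain ⟨f, hf⟩ := h
      by_cases hneg : f w < 0
      · exact ⟨f, by simp, hneg⟩
      · have hpos : 0 < f w := lt_of_le_of_ne (not_lt.mp hneg) (Ne.symm hf)
        exact ⟨-f, by simp, by simpa using hpos⟩
  | insert a s ha ih =>
    rcases ih v w with ⟨n, hn, hsum⟩ | ⟨f₀, hf₀, hf₀w⟩
    · left
      refine ⟨Function.update n a 0, ?_, ?_⟩
      · intro i hi
        by_cases hia : i = a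
        · simp [hia]
        · rw [Function.update_of_ne hia]
          exact hn i ((Finset.mem_insert.mp hi).resolve_left hia)
      · rw [Finset.sum_insert ha]
        simp only [Function.update_self, zero_smul, zero_add]
        rw [← hsum]
        refine Finset.sum_congr rfl fun i hi => ?_
        have hia : i ≠ a := fun h => ha (h ▸ hi)
        rw [Function.update_of_ne hia]
    · by_cases hva : 0 ≤ f₀ (v a)
      · right
        refine ⟨f₀, fun i hi => ?_, hf₀w⟩
        rcases Finset.mem_insert.mp hi with rfl | hi
        · exact hva
        · exact hf₀ i hi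
      · have hva' : f₀ (v a) < 0 := not_le.mp hva
        have hne : f₀ (v a) ≠ 0 := hva'.ne
        let pr : V → V := fun u => u - (f₀ u / f₀ (v a)) • v a
        rcases ih (fun i => pr (v i)) (pr w) with ⟨n, hn, hsum⟩ | ⟨g, hg, hgw⟩
        · left
          let co : ℚ := (f₀ w - ∑ i ∈ s, n i * f₀ (v i)) / f₀ (v a)
          have hco : 0 ≤ co := by
            have h1 : 0 ≤ ∑ i ∈ s, n i * f₀ (v i) :=
              Finset.sum_nonneg fun i hi => mul_nonneg (hn i hi) (hf₀ i hi)
            exact (div_pos_of_neg_of_neg (by linarith) hva').le
          refine ⟨Function.update n a co, ?_, ?_⟩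
          · intro i hi
            by_cases hia : i = a
            · simp [hia, hco]
            · rw [Function.update_of_ne hia]
              exact hn i ((Finset.mem_insert.mp hi).resolve_left hia)
          · rw [Finset.sum_insert ha]
            simp only [Function.update_self]
            have h2 : ∑ i ∈ s, Function.update n a co i • v i = ∑ i ∈ s, n i • v i := by
              refine Finset.sum_congr rfl fun i hi => ?_
              have hia : i ≠ a := fun h => ha (h ▸ hi)
              rw [Function.update_of_ne hia]
            rw [h2]
            have h3 : ∑ i ∈ s, n i • pr (v i) =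
                ∑ i ∈ s, n i • v i - (∑ i ∈ s, n i * (f₀ (v i) / f₀ (v a))) • v a := by
              simp only [pr, smul_sub, Finset.sum_sub_distrib, Finset.sum_smul, mul_smul]
            rw [h3] at hsum
            have h4 : pr w = w - (f₀ w / f₀ (v a)) • v a := rfl
            rw [h4] at hsum
            have h5 : ∑ i ∈ s, n i • v i =
                w - (f₀ w / f₀ (v a)) • v a + (∑ i ∈ s, n i * (f₀ (v i) / f₀ (v a))) • v a := by
              rw [← hsum]
              abel
            rw [h5]
            have h6 : co = f₀ w / f₀ (v a) - ∑ i ∈ s, n i * (f₀ (v i) / f₀ (v a)) := by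
              simp only [co, sub_div, Finset.sum_div, mul_div_assoc]
            rw [h6, sub_smul]
            abel
        · right
          let f : V →ₗ[ℚ] ℚ := g - (g (v a) / f₀ (v a)) • f₀
          have hf : ∀ u, f u = g (pr u) := by
            intro u
            simp only [f, pr, LinearMap.sub_apply, LinearMap.smul_apply, map_sub, map_smul,
              smul_eq_mul]
            field_simp
          refine ⟨f, fun i hi => ?_, ?_⟩
          · rcases Finset.mem_insert.mp hi with rfl | hi
            · have : f (v i) = 0 := by
                simp only [f, LinearMap.sub_apply, LinearMap.smul_apply, smul_eq_mul]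
                field_simp
                ring
              rw [this]
            · rw [hf]
              exact hg i hi
          · rw [hf]
            exact hgw

end Vale.Agent.Lib.P058C
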