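import Mathlib
import Vale.Agent.Lib.P058C.Defs
import Vale.Agent.Lib.P058C.Farkas

/-!
# The certificate extracted from Farkas' lemma when the array condition fails

If the array condition `ArrayCond d2 W` fails, then for each finite set `T` of columns there are
additive statistics `φ i : ℝ → ℚ` summing to zero over the index `i`, and `A > 0`, such that over
every family of columns from `T` with second moments `d2` the total statistic lies in `[A, W * A)`.
-/

namespace Vale.Agent.Lib.P058C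

open Finset

section Cert

variable {k : ℕ}

/-- Common denominators of finitely many nonnegative rationals. -/
theorem exists_common_den {ι : Type*} (S : Finset ι) (n : ι → ℚ) (hn : ∀ i ∈ S, 0 ≤ n i) :
    ∃ (Den : ℕ) (a : ι → ℕ), 0 < Den ∧ ∀ i ∈ S, (a i : ℚ) = Den * n i := by
  classical
  have hDen : 0 < ∏ j ∈ S, (n j).den := Finset.prod_pos fun i _ => (n i).den_pos
  have key : ∀ i, ∃ m : ℕ, i ∈ S → (m : ℚ) = ((∏ j ∈ S, (n j).den : ℕ) : ℚ) * n i := by
    intro i
    by_cases hi : i ∈ S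
    · obtain ⟨e, he⟩ := Finset.dvd_prod_of_mem (fun j => (n j).den) hi
      have hnum : 0 ≤ (n i).num := Rat.num_nonneg.mpr (hn i hi)
      refine ⟨e * (n i).num.toNat, fun _ => ?_⟩
      have h1 : (((n i).num.toNat : ℤ) : ℚ) = ((n i).num : ℚ) := by
        rw [Int.toNat_of_nonneg hnum]
      have h2 : ((n i).num.toNat : ℚ) = ((n i).num : ℚ) := by
        rw [← h1]; push_cast; rfl
      rw [he]
      push_cast
      rw [h2, ← Rat.mul_den_eq_num (n i)]
      ring
    · exact ⟨0, fun h => absurd h hi⟩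
  choose a ha using key
  exact ⟨_, a, hDen, fun i hi => ha i hi⟩

/-- Weighted multiset. -/
noncomputable def wms {α β : Type*} (T : Finset α) (a : α → ℕ) (f : α → β) : Multiset β :=
  ∑ t ∈ T, Multiset.replicate (a t) (f t)

theorem wms_map {α β γ : Type*} (T : Finset α) (a : α → ℕ) (f : α → β) (g : β → γ) :
    (wms T a f).map g = wms T a (fun t => g (f t)) := by
  classical
  unfold wms
  induction T using Finset.induction_on with
  | empty => simp
  | insert x s hx ih =>
    rw [Finset.sum_insert hx, Finset.sum_insert hx, Multiset.map_add, ih, Multiset.map_replicate]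

theorem count_wms {α β : Type*} [DecidableEq β] (T : Finset α) (a : α → ℕ) (f : α → β) (b : β) :
    (wms T a f).count b = ∑ t ∈ T, if f t = b then a t else 0 := by
  classical
  unfold wms
  induction T using Finset.induction_on with
  | empty => simp
  | insert x s hx ih =>
    rw [Finset.sum_insert hx, Finset.sum_insert hx, Multiset.count_add, ih, Multiset.count_replicate]

theorem sum_wms {α : Type*} (T : Finset α) (a : α → ℕ) (f : α → ℝ) :
    (wms T a f).sum = ∑ t ∈ T, (a t : ℝ) * f t := by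
  classical
  unfold wms
  induction T using Finset.induction_on with
  | empty => simp
  | insert x s hx ih =>
    rw [Finset.sum_insert hx, Finset.sum_insert hx, Multiset.sum_add, ih, Multiset.sum_replicate]
    simp

/-- Nonnegative rational weights with the right balance give the array condition. -/
theorem arrayCond_of_weights (d2 : Fin k → Fin k → ℝ) (W : ℕ) (i0 j0 : Fin k) (h0 : 0 < d2 i0 j0)
    (T : Finset (Fin k → ℝ)) (nP nN : (Fin k → ℝ) → ℚ)
    (hnP : ∀ t ∈ T, 0 ≤ nP t) (hnN : ∀ t ∈ T, 0 ≤ nN t)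
    (hlaw : ∀ (i : Fin k) (s : ℝ),
      ∑ t ∈ T, nP t * ((if t i = s then (1 : ℚ) else 0) - (if t i0 = s then (1 : ℚ) else 0))
        - ∑ t ∈ T, nN t * ((if t i = s then (1 : ℚ) else 0) - (if t i0 = s then (1 : ℚ) else 0)) = 0)
    (hW : ∀ i j, ∑ t ∈ T, (nP t : ℝ) * (t i - t j) ^ 2 = W * ∑ t ∈ T, (nN t : ℝ) * (t i - t j) ^ 2)
    (hg : ∀ i j, (∑ t ∈ T, (nN t : ℝ) * (t i - t j) ^ 2) * d2 i0 j0
        = (∑ t ∈ T, (nN t : ℝ) * (t i0 - t j0) ^ 2) * d2 i j)
    (hpos : ∃ t ∈ T, 0 < nN t ∧ t i0 ≠ t j0) : ArrayCond d2 W := by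
  classical
  -- common denominator on the disjoint union
  obtain ⟨Den, a, hDen, ha⟩ := exists_common_den (T.disjSum T)
    (fun x => Sum.elim nP nN x)
    (by
      intro x hx
      rcases x with t | t
      · exact hnP t (Finset.inl_mem_disjSum.mp hx)
      · exact hnN t (Finset.inr_mem_disjSum.mp hx))
  let aP : (Fin k → ℝ) → ℕ := fun t => a (Sum.inl t)
  let aN : (Fin k → ℝ) → ℕ := fun t => a (Sum.inr t)
  have haP : ∀ t ∈ T, (aP t : ℚ) = Den * nP t := fun t ht =>
    ha (Sum.inl t) (Finset.inl_mem_disjSum.mpr ht)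
  have haN : ∀ t ∈ T, (aN t : ℚ) = Den * nN t := fun t ht =>
    ha (Sum.inr t) (Finset.inr_mem_disjSum.mpr ht)
  have haPR : ∀ t ∈ T, (aP t : ℝ) = Den * (nP t : ℝ) := fun t ht => by
    have := congrArg (fun q : ℚ => (q : ℝ)) (haP t ht)
    simpa using this
  have haNR : ∀ t ∈ T, (aN t : ℝ) = Den * (nN t : ℝ) := fun t ht => by
    have := congrArg (fun q : ℚ => (q : ℝ)) (haN t ht)
    simpa using this
  have hDenR : (0 : ℝ) < Den := by exact_mod_cast hDen
  have hd : d2 i0 j0 ≠ 0 := ne_of_gt h0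
  -- the total mass
  set E0 : ℝ := ∑ t ∈ T, (nN t : ℝ) * (t i0 - t j0) ^ 2 with hE0
  have hE0pos : 0 < E0 := by
    obtain ⟨t1, ht1, hpos1, hne1⟩ := hpos
    have h1 : (0 : ℝ) < (nN t1 : ℝ) * (t1 i0 - t1 j0) ^ 2 := by
      have h2 : (0 : ℝ) < (nN t1 : ℝ) := by exact_mod_cast hpos1
      have h3 : t1 i0 - t1 j0 ≠ 0 := sub_ne_zero.mpr hne1
      positivity
    refine lt_of_lt_of_le h1 ?_
    refine Finset.single_le_sum (f := fun t => (nN t : ℝ) * (t i0 - t j0) ^ 2) ?_ ht1
    intro t ht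
    have h2 : (0 : ℝ) ≤ (nN t : ℝ) := by exact_mod_cast hnN t ht
    positivity
  have hE : ∀ i j, ∑ t ∈ T, (nN t : ℝ) * (t i - t j) ^ 2 = E0 / d2 i0 j0 * d2 i j := by
    intro i j
    have := hg i j
    field_simp
    linarith
  let PP : Multiset (Fin k → ℝ) := wms T aP (fun t => t) + wms T aN (fun t => fun _ => t i0)
  let NN : Multiset (Fin k → ℝ) := wms T aN (fun t => t) + wms T aP (fun t => fun _ => t i0)
  refine ⟨PP, NN, Den * (E0 / d2 i0 j0), by positivity, ?_, ?_, ?_⟩
  · -- equal laws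
    intro i
    ext s
    simp only [PP, NN, Multiset.map_add, wms_map, Multiset.count_add, count_wms]
    have hl := hlaw i s
    -- pass to rationals
    have key : ((∑ t ∈ T, (if t i = s then aP t else 0)) + (∑ t ∈ T, (if t i0 = s then aN t else 0)) : ℕ)
        = (∑ t ∈ T, (if t i = s then aN t else 0)) + (∑ t ∈ T, (if t i0 = s then aP t else 0)) := by
      have hQ : (((∑ t ∈ T, (if t i = s then aP t else 0)) + (∑ t ∈ T, (if t i0 = s then aN t else 0)) : ℕ) : ℚ)
          = (((∑ t ∈ T, (if t i = s then aN t else 0)) + (∑ t ∈ T, (if t i0 = s then aP t else 0)) : ℕ) : ℚ) := by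
        push_cast
        have e1 : ∀ (aa : (Fin k → ℝ) → ℕ) (nn : (Fin k → ℝ) → ℚ) (l : Fin k),
            (∀ t ∈ T, (aa t : ℚ) = Den * nn t) →
            ∑ t ∈ T, (if t l = s then (aa t : ℚ) else 0)
              = Den * ∑ t ∈ T, nn t * (if t l = s then (1 : ℚ) else 0) := by
          intro aa nn l h
          rw [Finset.mul_sum]
          refine Finset.sum_congr rfl fun t ht => ?_
          by_cases hh : t l = s
          · simp [hh, h t ht]
          · simp [hh]
        rw [e1 aP nP i haP, e1 aN nN i0 haN, e1 aN nN i haN, e1 aP nP i0 haP]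
        have hl' : ∑ t ∈ T, nP t * (if t i = s then (1 : ℚ) else 0)
            - ∑ t ∈ T, nP t * (if t i0 = s then (1 : ℚ) else 0)
            - (∑ t ∈ T, nN t * (if t i = s then (1 : ℚ) else 0)
              - ∑ t ∈ T, nN t * (if t i0 = s then (1 : ℚ) else 0)) = 0 := by
          have e2 : ∀ nn : (Fin k → ℝ) → ℚ,
              ∑ t ∈ T, nn t * ((if t i = s then (1 : ℚ) else 0) - (if t i0 = s then (1 : ℚ) else 0))
                = ∑ t ∈ T, nn t * (if t i = s then (1 : ℚ) else 0)
                  - ∑ t ∈ T, nn t * (if t i0 = s then (1 : ℚ) else 0) := fun nn => by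
            rw [← Finset.sum_sub_distrib]
            exact Finset.sum_congr rfl fun t _ => by ring
          rw [e2 nP, e2 nN] at hl
          exact hl
        have : (Den : ℚ) * (∑ t ∈ T, nP t * (if t i = s then (1 : ℚ) else 0)
            - ∑ t ∈ T, nP t * (if t i0 = s then (1 : ℚ) else 0)
            - (∑ t ∈ T, nN t * (if t i = s then (1 : ℚ) else 0)
              - ∑ t ∈ T, nN t * (if t i0 = s then (1 : ℚ) else 0))) = 0 := by
          rw [hl', mul_zero]
        linarith
      exact_mod_cast hQ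
    exact key
  · -- second moments of `N`
    intro i j
    simp only [NN, Multiset.map_add, wms_map, Multiset.sum_add, sum_wms]
    simp only [sub_self, ne_eq, OfNat.ofNat_ne_zero, not_false_eq_true, zero_pow, mul_zero,
      Finset.sum_const_zero, add_zero]
    rw [Finset.sum_congr rfl (fun t ht => by rw [haNR t ht, mul_assoc]), ← Finset.mul_sum, hE i j]
    ring
  · -- second moments of `P`
    intro i j
    simp only [PP, Multiset.map_add, wms_map, Multiset.sum_add, sum_wms]
    simp only [sub_self, ne_eq, OfNat.ofNat_ne_zero, not_false_eq_true, zero_pow, mul_zero,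
      Finset.sum_const_zero, add_zero]
    rw [Finset.sum_congr rfl (fun t ht => by rw [haPR t ht, mul_assoc]), ← Finset.mul_sum, hW i j, hE i j]
    ring


/-- The row vector of a column, relative to index `i0`. -/
noncomputable def rho (i0 : Fin k) (t : Fin k → ℝ) : Fin k → ℝ →₀ ℚ :=
  fun i => Finsupp.single (t i) 1 - Finsupp.single (t i0) 1

/-- The squared differences of a column. -/
def Dm (t : Fin k → ℝ) : Fin k → Fin k → ℝ := fun i j => (t i - t j) ^ 2

/-- The map with kernel the real line through `d2` (when `d2 i0 j0 ≠ 0`). -/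
def kap (d2 : Fin k → Fin k → ℝ) (i0 j0 : Fin k) (u : Fin k → Fin k → ℝ) : Fin k → Fin k → ℝ :=
  fun i j => u i j * d2 i0 j0 - u i0 j0 * d2 i j

open Classical in
/-- Indicator of a column separating `i0` and `j0`. -/
noncomputable def cc (i0 j0 : Fin k) (t : Fin k → ℝ) : ℚ := if t i0 ≠ t j0 then 1 else 0

/-- The ambient rational vector space of the Farkas argument. -/
abbrev VV (k : ℕ) :=
  (Fin k → ℝ →₀ ℚ) × (Fin k → Fin k → ℝ) × (Fin k → Fin k → ℝ) × ℚ

/-- The generators of the Farkas argument. -/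
noncomputable def gen (d2 : Fin k → Fin k → ℝ) (W : ℕ) (i0 j0 : Fin k) :
    (Fin k → ℝ) ⊕ (Fin k → ℝ) → VV k
  | Sum.inl t => (rho i0 t, Dm t, 0, 0)
  | Sum.inr t => (-rho i0 t, -((W : ℚ) • Dm t), kap d2 i0 j0 (Dm t), cc i0 j0 t)

theorem arrayCond_of_cone (d2 : Fin k → Fin k → ℝ) (W : ℕ) (i0 j0 : Fin k) (h0 : 0 < d2 i0 j0)
    (T : Finset (Fin k → ℝ)) (n : (Fin k → ℝ) ⊕ (Fin k → ℝ) → ℚ)
    (hn : ∀ x ∈ T.disjSum T, 0 ≤ n x)
    (hsum : ∑ x ∈ T.disjSum T, n x • gen d2 W i0 j0 x = ((0, 0, 0, 1) : VV k)) :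
    ArrayCond d2 W := by
  classical
  rw [Finset.sum_disjSum] at hsum
  have h1 := congrArg Prod.fst hsum
  have h2 := congrArg (fun x : VV k => x.2.1) hsum
  have h3 := congrArg (fun x : VV k => x.2.2.1) hsum
  have h4 := congrArg (fun x : VV k => x.2.2.2) hsum
  simp only [Prod.fst_add, Prod.snd_add, Prod.fst_sum, Prod.snd_sum, Prod.smul_fst, Prod.smul_snd,
    gen] at h1 h2 h3 h4
  refine arrayCond_of_weights d2 W i0 j0 h0 T (fun t => n (Sum.inl t)) (fun t => n (Sum.inr t))
    (fun t ht => hn _ (Finset.inl_mem_disjSum.mpr ht))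
    (fun t ht => hn _ (Finset.inr_mem_disjSum.mpr ht)) ?_ ?_ ?_ ?_
  · -- laws
    intro i s
    have h5 := DFunLike.congr_fun (congrFun h1 i) s
    simp only [Pi.add_apply, Finset.sum_apply, Pi.smul_apply, Pi.neg_apply, rho, Pi.zero_apply,
      Finsupp.add_apply, Finsupp.coe_finsetSum, Finsupp.smul_apply, Finsupp.sub_apply,
      Finsupp.neg_apply, Finsupp.coe_zero, Finsupp.single_apply, smul_eq_mul, mul_neg] at h5
    rw [Finset.sum_neg_distrib, ← sub_eq_add_neg] at h5
    exact h5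
  · -- gain
    intro i j
    have h5 := congrFun (congrFun h2 i) j
    simp only [Pi.add_apply, Finset.sum_apply, Pi.smul_apply, Pi.neg_apply, Dm, Pi.zero_apply,
      Rat.smul_def, mul_neg] at h5
    rw [Finset.sum_neg_distrib, ← sub_eq_add_neg, sub_eq_zero] at h5
    rw [h5, Finset.mul_sum]
    refine Finset.sum_congr rfl fun t _ => ?_
    push_cast
    ring
  · -- proportional to `d2`
    intro i j
    have h5 := congrFun (congrFun h3 i) j
    simp only [Pi.add_apply, Finset.sum_apply, Pi.smul_apply, Pi.zero_apply, kap, Dm,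
      Rat.smul_def, mul_zero, Finset.sum_const_zero, zero_add] at h5
    have h6 : ∑ t ∈ T, (n (Sum.inr t) : ℝ) * ((t i - t j) ^ 2 * d2 i0 j0 - (t i0 - t j0) ^ 2 * d2 i j)
        = (∑ t ∈ T, (n (Sum.inr t) : ℝ) * (t i - t j) ^ 2) * d2 i0 j0
          - (∑ t ∈ T, (n (Sum.inr t) : ℝ) * (t i0 - t j0) ^ 2) * d2 i j := by
      rw [Finset.sum_mul, Finset.sum_mul, ← Finset.sum_sub_distrib]
      exact Finset.sum_congr rfl fun t _ => by ring
    rw [h6] at h5
    linarith
  · -- some column separates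
    simp only [smul_eq_mul, mul_zero, Finset.sum_const_zero, zero_add] at h4
    by_contra hcon
    push Not at hcon
    have : ∑ t ∈ T, n (Sum.inr t) * cc i0 j0 t = 0 := by
      refine Finset.sum_eq_zero fun t ht => ?_
      by_cases hne : t i0 = t j0
      · simp [cc, hne]
      · have hle : n (Sum.inr t) ≤ 0 := by
          by_contra hlt
          exact hne (hcon t ht (not_le.mp hlt))
        have hge := hn (Sum.inr t) (Finset.inr_mem_disjSum.mpr ht)
        have : n (Sum.inr t) = 0 := le_antisymm hle hge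
        simp [this]
    rw [this] at h4
    norm_num at h4

/-- L2. The certificate on a finite set of columns, extracted from Farkas. -/
theorem certificate {k : ℕ} (d2 : Fin k → Fin k → ℝ) (W : ℕ) (hW : 2 ≤ W)
    (h : ¬ ArrayCond d2 W) (i0 j0 : Fin k) (h0 : 0 < d2 i0 j0) (T : Finset (Fin k → ℝ)) :
    ∃ (φ : Fin k → ℝ → ℚ) (A : ℚ), 0 < A ∧ (∀ s, ∑ i, φ i s = 0) ∧
      ∀ (D : ℕ) (t : Fin D → Fin k → ℝ), (∀ q, t q ∈ T) →
        (∀ i j, ∑ q, (t q i - t q j) ^ 2 = d2 i j) →
        A ≤ ∑ q, ∑ i, φ i (t q i) ∧ ∑ q, ∑ i, φ i (t q i) < W * A := by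
  classical
  rcases farkas_rat (T.disjSum T) (gen d2 W i0 j0) ((0, 0, 0, 1) : VV k) with ⟨n, hn, hsum⟩ | ⟨f, hf, hfw⟩
  · exact absurd (arrayCond_of_cone d2 W i0 j0 h0 T n hn hsum) h
  -- the functionals
  let F1 : (Fin k → ℝ →₀ ℚ) →ₗ[ℚ] ℚ := f.comp (LinearMap.inl ℚ _ _)
  let F2 : (Fin k → Fin k → ℝ) →ₗ[ℚ] ℚ :=
    f.comp ((LinearMap.inr ℚ _ _).comp (LinearMap.inl ℚ _ _))
  let F3 : (Fin k → Fin k → ℝ) →ₗ[ℚ] ℚ :=
    f.comp ((LinearMap.inr ℚ _ _).comp ((LinearMap.inr ℚ _ _).comp (LinearMap.inl ℚ _ _)))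
  let z : ℚ := f ((0, 0, 0, 1) : VV k)
  have dec : ∀ (x : Fin k → ℝ →₀ ℚ) (u u' : Fin k → Fin k → ℝ) (r : ℚ),
      f ((x, u, u', r) : VV k) = F1 x + F2 u + F3 u' + r * z := by
    intro x u u' r
    have e : ((x, u, u', r) : VV k) =
        ((x, 0, 0, 0) : VV k) + ((0, u, 0, 0) : VV k) + ((0, 0, u', 0) : VV k)
          + r • ((0, 0, 0, 1) : VV k) := by
      simp
    rw [e, map_add, map_add, map_add, map_smul]
    rfl
  let φ0 : Fin k → ℝ → ℚ := fun i s => F1 (Pi.single i (Finsupp.single s 1))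
  let ψ : Fin k → ℝ → ℚ := fun i s => φ0 i s - (if i = i0 then ∑ j, φ0 j s else 0)
  have hψ0 : ∀ s, ∑ i, ψ i s = 0 := by
    intro s
    simp only [ψ, Finset.sum_sub_distrib, Finset.sum_ite_eq', Finset.mem_univ, if_true, sub_self]
  have hF1 : ∀ t : Fin k → ℝ, F1 (rho i0 t) = ∑ i, ψ i (t i) := by
    intro t
    have e : rho i0 t = ∑ i, Pi.single i (Finsupp.single (t i) (1 : ℚ))
        - ∑ i, Pi.single i (Finsupp.single (t i0) (1 : ℚ)) := by
      rw [Finset.univ_sum_single, Finset.univ_sum_single]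
      rfl
    rw [e, map_sub, map_sum, map_sum]
    simp only [ψ, Finset.sum_sub_distrib, Finset.sum_ite_eq', Finset.mem_univ, if_true]
    rfl
  by_cases hex : ∃ (D : ℕ) (t : Fin D → Fin k → ℝ), (∀ q, t q ∈ T) ∧
      (∀ i j, ∑ q, (t q i - t q j) ^ 2 = d2 i j)
  swap
  · exact ⟨fun _ _ => 0, 1, one_pos, fun s => by simp, fun D t h1 h2 => absurd ⟨D, t, h1, h2⟩ hex⟩
  have hfam : ∀ (D : ℕ) (t : Fin D → Fin k → ℝ), (∀ q, t q ∈ T) →
      (∀ i j, ∑ q, (t q i - t q j) ^ 2 = d2 i j) →
      -(F2 d2) ≤ ∑ q, ∑ i, ψ i (t q i) ∧ ∑ q, ∑ i, ψ i (t q i) < W * -(F2 d2) := by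
    intro D t h1 h2
    have hD : ∑ q, Dm (t q) = d2 := by
      funext i j
      simpa [Finset.sum_apply, Dm] using h2 i j
    have hK : ∑ q, kap d2 i0 j0 (Dm (t q)) = 0 := by
      funext i j
      simp only [Finset.sum_apply, kap, Dm, Pi.zero_apply]
      rw [Finset.sum_sub_distrib, ← Finset.sum_mul, ← Finset.sum_mul, h2 i j, h2 i0 j0]
      ring
    have hp : ∀ q, 0 ≤ (∑ i, ψ i (t q i)) + F2 (Dm (t q)) := by
      intro q
      have := hf (Sum.inl (t q)) (Finset.inl_mem_disjSum.mpr (h1 q))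
      simp only [gen] at this
      rw [dec, hF1, map_zero] at this
      simpa using this
    have hm : ∀ q, 0 ≤ -(∑ i, ψ i (t q i)) - W * F2 (Dm (t q))
        + F3 (kap d2 i0 j0 (Dm (t q))) + cc i0 j0 (t q) * z := by
      intro q
      have := hf (Sum.inr (t q)) (Finset.inr_mem_disjSum.mpr (h1 q))
      simp only [gen] at this
      rw [dec, map_neg, hF1, map_neg, map_smul] at this
      have e : ∀ a b c d : ℚ, a + -((W : ℚ) • b) + c + d = a - W * b + c + d := by
        intro a b c d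
        rw [smul_eq_mul]
        ring
      rwa [e] at this
    have hsump : 0 ≤ (∑ q, ∑ i, ψ i (t q i)) + F2 d2 := by
      have := Finset.sum_nonneg (fun q (_ : q ∈ (univ : Finset (Fin D))) => hp q)
      rwa [Finset.sum_add_distrib, ← map_sum, hD] at this
    have hsumm : 0 ≤ -(∑ q, ∑ i, ψ i (t q i)) - W * F2 d2 + (∑ q, cc i0 j0 (t q)) * z := by
      have := Finset.sum_nonneg (fun q (_ : q ∈ (univ : Finset (Fin D))) => hm q)
      rw [Finset.sum_add_distrib, Finset.sum_add_distrib, Finset.sum_sub_distrib,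
        Finset.sum_neg_distrib, ← Finset.mul_sum, ← map_sum, ← map_sum, hD, hK, map_zero,
        add_zero, ← Finset.sum_mul] at this
      exact this
    have hc : 1 ≤ ∑ q, cc i0 j0 (t q) := by
      have hsep : ∃ q, t q i0 ≠ t q j0 := by
        by_contra hcon
        push Not at hcon
        have := h2 i0 j0
        rw [Finset.sum_eq_zero (fun q _ => by rw [hcon q]; simp)] at this
        linarith
      obtain ⟨q, hq⟩ := hsep
      have h3 : cc i0 j0 (t q) = 1 := by simp [cc, hq]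
      rw [← h3]
      refine Finset.single_le_sum (f := fun q => cc i0 j0 (t q)) ?_ (Finset.mem_univ q)
      intro q' _
      by_cases hne : t q' i0 = t q' j0
      · simp [cc, hne]
      · simp [cc, hne]
    have hz : z < 0 := hfw
    constructor
    · linarith
    · have h4 : (∑ q, cc i0 j0 (t q)) * z ≤ 1 * z :=
        mul_le_mul_of_nonpos_right hc hz.le
      linarith
  refine ⟨ψ, -(F2 d2), ?_, hψ0, hfam⟩
  obtain ⟨D, t, h1, h2⟩ := hex
  obtain ⟨h3, h4⟩ := hfam D t h1 h2
  have hW' : (2 : ℚ) ≤ W := by exact_mod_cast hW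
  by_contra hcon
  have h5 : -(F2 d2) ≤ 0 := not_lt.mp hcon
  have h6 : (W : ℚ) * -(F2 d2) ≤ 1 * -(F2 d2) := mul_le_mul_of_nonpos_right (by linarith) h5
  linarith

end Cert

end Vale.Agent.Lib.P058C
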