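import Mathlib

/-!
# The colouring attached to a certificate: residues of additive statistics
-/

namespace Vale.Agent.Lib.P058C

open Finset

/-- The arithmetic core: integers with equal residues give a contradiction with the window. -/
theorem colouring_core {k : ℕ} (hk : 0 < k) (W : ℕ) (hW : 2 ≤ W) (a b : Fin k → ℚ)
    (hb : ∑ i, b i = 0) (hcong : ∀ i, (((2 * k * (W + 1) : ℕ) : ℤ)) ∣ ⌊a i⌋ - ⌊b i⌋)
    (h1 : (2 * k : ℚ) ≤ ∑ i, a i) (h2 : ∑ i, a i < 2 * k * W) : False := by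
  classical
  choose m hm using hcong
  set K : ℤ := ((2 * k * (W + 1) : ℕ) : ℤ) with hK
  have hKval : (K : ℚ) = 2 * k * (W + 1) := by
    simp [hK]
  have hkpos : (0 : ℚ) < k := by exact_mod_cast hk
  have hWpos : (2 : ℚ) ≤ W := by exact_mod_cast hW
  -- the rounding error
  have herr : ∀ i, a i - b i - K * m i < 1 ∧ -1 < a i - b i - K * m i := by
    intro i
    have hi : ((⌊a i⌋ : ℤ) : ℚ) - (⌊b i⌋ : ℤ) = K * m i := by exact_mod_cast hm i
    have ha1 := Int.floor_le (a i)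
    have ha2 := Int.lt_floor_add_one (a i)
    have hb1 := Int.floor_le (b i)
    have hb2 := Int.lt_floor_add_one (b i)
    constructor <;> linarith
  set M : ℤ := ∑ i, m i with hM
  have hsum : ∑ i, (a i - b i - K * m i) = ∑ i, a i - K * M := by
    rw [Finset.sum_sub_distrib, Finset.sum_sub_distrib, hb, hM]
    push_cast
    rw [Finset.mul_sum]
    ring
  have hcard : ((Finset.univ : Finset (Fin k)).card : ℚ) = k := by simp
  have hne : (Finset.univ : Finset (Fin k)).Nonempty := by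
    have : Nonempty (Fin k) := ⟨⟨0, hk⟩⟩
    exact Finset.univ_nonempty
  have hlt : ∑ i, (a i - b i - K * m i) < k := by
    calc ∑ i, (a i - b i - K * m i) < ∑ _i : Fin k, (1 : ℚ) :=
          Finset.sum_lt_sum_of_nonempty hne fun i _ => (herr i).1
      _ = k := by simp
  have hgt : -(k : ℚ) < ∑ i, (a i - b i - K * m i) := by
    calc -(k : ℚ) = ∑ _i : Fin k, (-1 : ℚ) := by simp
      _ < _ := Finset.sum_lt_sum_of_nonempty hne fun i _ => (herr i).2
  rw [hsum] at hlt hgt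
  -- `K * M` lies strictly between `0` and `K`
  have hpos : (0 : ℚ) < K * M := by linarith
  have hlt' : (K : ℚ) * M < K := by
    have : (K : ℚ) = 2 * k * W + 2 * k := by rw [hKval]; ring
    nlinarith
  have hKpos : (0 : ℚ) < K := by
    rw [hKval]; positivity
  have hM1 : (0 : ℚ) < M := by
    by_contra hcon
    have hcon := not_lt.mp hcon
    nlinarith
  have hM2 : (M : ℚ) < 1 := by
    by_contra hcon
    have hcon := not_lt.mp hcon
    nlinarith
  have hM3 : (0 : ℤ) < M := by exact_mod_cast hM1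
  have hM4 : M < (1 : ℤ) := by exact_mod_cast hM2
  omega

/-- L3 with the abbreviations unfolded. -/
theorem colouring_aux {k : ℕ} (hk : 0 < k) (W D : ℕ) (hW : 2 ≤ W) (φ : Fin k → ℝ → ℚ) (A : ℚ)
    (hA : 0 < A) (hφ : ∀ s, ∑ i, φ i s = 0) :
    ∃ c : EuclideanSpace ℝ (Fin D) → Fin ((2 * k * (W + 1)) ^ k),
      ∀ y : Fin k → EuclideanSpace ℝ (Fin D),
        A ≤ ∑ q, ∑ i, φ i (y i q) → ∑ q, ∑ i, φ i (y i q) < W * A →
          ¬ ∃ col, ∀ i, c (y i) = col := by
  classical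
  have hKpos : 0 < 2 * k * (W + 1) := by positivity
  have hKZ : (0 : ℤ) < ((2 * k * (W + 1) : ℕ) : ℤ) := by exact_mod_cast hKpos
  -- the statistic
  let F : Fin k → EuclideanSpace ℝ (Fin D) → ℚ := fun i y => ∑ q, φ i (y q)
  let g : Fin k → EuclideanSpace ℝ (Fin D) → ℤ := fun i y => ⌊2 * k * F i y / A⌋
  have hlt : ∀ i y, (g i y % ((2 * k * (W + 1) : ℕ) : ℤ)).toNat < 2 * k * (W + 1) := by
    intro i y
    have h1 := Int.emod_nonneg (g i y) hKZ.ne'
    have h2 := Int.emod_lt_of_pos (g i y) hKZ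
    omega
  let col : EuclideanSpace ℝ (Fin D) → (Fin k → Fin (2 * k * (W + 1))) :=
    fun y i => ⟨(g i y % ((2 * k * (W + 1) : ℕ) : ℤ)).toNat, hlt i y⟩
  refine ⟨fun y => finFunctionFinEquiv (col y), ?_⟩
  rintro y h1 h2 ⟨cl, hcl⟩
  have hcol : ∀ i, col (y i) = col (y ⟨0, hk⟩) := by
    intro i
    have e1 := hcl i
    have e2 := hcl ⟨0, hk⟩
    exact finFunctionFinEquiv.injective (e1.trans e2.symm)
  -- the congruences
  have hcong : ∀ i, (((2 * k * (W + 1) : ℕ) : ℤ)) ∣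
      ⌊2 * k * F i (y i) / A⌋ - ⌊2 * k * F i (y ⟨0, hk⟩) / A⌋ := by
    intro i
    have e := congrFun (hcol i) i
    have e' : (g i (y i) % ((2 * k * (W + 1) : ℕ) : ℤ)).toNat
        = (g i (y ⟨0, hk⟩) % ((2 * k * (W + 1) : ℕ) : ℤ)).toNat := congrArg Fin.val e
    have n1 := Int.emod_nonneg (g i (y i)) hKZ.ne'
    have n2 := Int.emod_nonneg (g i (y ⟨0, hk⟩)) hKZ.ne'
    have e'' : g i (y i) % ((2 * k * (W + 1) : ℕ) : ℤ)
        = g i (y ⟨0, hk⟩) % ((2 * k * (W + 1) : ℕ) : ℤ) := by omega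
    exact Int.ModEq.dvd (Int.ModEq.symm e'')
  have hkQ : (0 : ℚ) < k := by exact_mod_cast hk
  have hXi : ∑ i, (2 * k * F i (y i) / A) = 2 * k / A * ∑ q, ∑ i, φ i (y i q) := by
    have hswap : ∑ q, ∑ i, φ i (y i q) = ∑ i, F i (y i) := Finset.sum_comm
    rw [hswap, Finset.mul_sum]
    exact Finset.sum_congr rfl fun i _ => by ring
  have hb : ∑ i, (2 * k * F i (y ⟨0, hk⟩) / A) = 0 := by
    have hswap : ∑ i, F i (y ⟨0, hk⟩) = ∑ q, ∑ i, φ i (y ⟨0, hk⟩ q) := Finset.sum_comm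
    have h0 : ∑ i, F i (y ⟨0, hk⟩) = 0 := by
      rw [hswap]
      exact Finset.sum_eq_zero fun q _ => hφ _
    calc ∑ i, (2 * k * F i (y ⟨0, hk⟩) / A) = 2 * k / A * ∑ i, F i (y ⟨0, hk⟩) := by
          rw [Finset.mul_sum]
          exact Finset.sum_congr rfl fun i _ => by ring
      _ = 0 := by rw [h0, mul_zero]
  have hfac : (0 : ℚ) < 2 * k / A := by positivity
  refine colouring_core hk W hW (fun i => 2 * k * F i (y i) / A)
    (fun i => 2 * k * F i (y ⟨0, hk⟩) / A) hb hcong ?_ ?_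
  · show (2 * k : ℚ) ≤ ∑ i, (2 * k * F i (y i) / A)
    rw [hXi]
    calc (2 * k : ℚ) = 2 * k / A * A := by field_simp
      _ ≤ _ := mul_le_mul_of_nonneg_left h1 hfac.le
  · show ∑ i, (2 * k * F i (y i) / A) < 2 * k * W
    rw [hXi]
    calc 2 * k / A * ∑ q, ∑ i, φ i (y i q) < 2 * k / A * (W * A) :=
          mul_lt_mul_of_pos_left h2 hfac
      _ = 2 * k * W := by field_simp

end Vale.Agent.Lib.P058C
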