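import Mathlib

/-!
# Compactness for colourings of Euclidean space
-/

namespace Vale.Agent.Lib.P058C

/-- L4. Compactness for colourings: if every finite family of configurations can be made
non-monochromatic by some `r`-colouring, then so can all of them at once. -/
theorem exists_colouring_of_finite {k D r : ℕ} (S : Set (Fin k → EuclideanSpace ℝ (Fin D)))
    (h : ∀ F : Finset (Fin k → EuclideanSpace ℝ (Fin D)), (↑F ⊆ S) →
      ∃ c : EuclideanSpace ℝ (Fin D) → Fin r, ∀ y ∈ F, ¬ ∃ col, ∀ i, c (y i) = col) :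
    ∃ c : EuclideanSpace ℝ (Fin D) → Fin r, ∀ y ∈ S, ¬ ∃ col, ∀ i, c (y i) = col := by
  classical
  let U : S → Set (EuclideanSpace ℝ (Fin D) → Fin r) := fun y =>
    {c | ¬ ∃ col, ∀ i, c (y.1 i) = col}
  have hclosed : ∀ y : S, IsClosed (U y) := by
    intro y
    have hcont : Continuous (fun c : EuclideanSpace ℝ (Fin D) → Fin r => fun i => c (y.1 i)) :=
      continuous_pi fun i => continuous_apply _
    have : U y = (fun c : EuclideanSpace ℝ (Fin D) → Fin r => fun i => c (y.1 i)) ⁻¹'
        {g : Fin k → Fin r | ¬ ∃ col, ∀ i, g i = col} := rfl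
    rw [this]
    exact (isClosed_discrete _).preimage hcont
  have hfin : ∀ u : Finset S,
      ((Set.univ : Set (EuclideanSpace ℝ (Fin D) → Fin r)) ∩ ⋂ y ∈ u, U y).Nonempty := by
    intro u
    obtain ⟨c, hc⟩ := h (u.image Subtype.val) (by
      intro y hy
      simp only [Finset.coe_image, Set.mem_image, Finset.mem_coe] at hy
      obtain ⟨z, _, rfl⟩ := hy
      exact z.2)
    refine ⟨c, Set.mem_univ _, ?_⟩
    simp only [Set.mem_iInter]
    intro y hy
    exact hc y.1 (Finset.mem_image_of_mem _ hy)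
  obtain ⟨c, -, hc⟩ := isCompact_univ.inter_iInter_nonempty U hclosed hfin
  refine ⟨c, fun y hy => ?_⟩
  exact (Set.mem_iInter.mp hc) ⟨y, hy⟩

end Vale.Agent.Lib.P058C
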