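import Mathlib
import Vale.Agent.Lib.P058.Words
import Vale.Agent.Lib.P058C.Defs
import Vale.Agent.Lib.P058C.Farkas
import Vale.Agent.Lib.P058C.Cert
import Vale.Agent.Lib.P058C.Colour
import Vale.Agent.Lib.P058C.Compact

/-!
# Ramsey sets satisfy the array condition
-/

namespace Vale.Agent.Lib.P058C

open Finset
open Vale.Agent.Lib.P058

/-- Euclidean space. -/
abbrev E (d : ℕ) := EuclideanSpace ℝ (Fin d)

/-- The number of colours. -/
def numColours (k W : ℕ) : ℕ := (2 * k * (W + 1)) ^ k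

/-- L5. A Ramsey family satisfies the array condition for every gain. -/
theorem arrayCond_of_isRamseyFamily {k d : ℕ} (x : Fin k → E d) (h : IsRamseyFamily x) (W : ℕ)
    (hW : 2 ≤ W) : ArrayCond (fun i j => dist (x i) (x j) ^ 2) W := by
  classical
  by_contra hn
  -- all squared distances vanish: the empty multisets work
  by_cases hall : ∀ i j, dist (x i) (x j) ^ 2 = 0
  · apply hn
    refine ⟨0, 0, 1, one_pos, fun i => by simp, fun i j => ?_, fun i j => ?_⟩
    · simp [hall i j]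
    · simp [hall i j]
  push Not at hall
  obtain ⟨i0, j0, hij⟩ := hall
  have h0 : 0 < dist (x i0) (x j0) ^ 2 := lt_of_le_of_ne (by positivity) (Ne.symm hij)
  have hk : 0 < k := i0.pos
  have hr : 2 ≤ numColours k W := by
    have h1 : 2 ≤ 2 * k * (W + 1) := by nlinarith
    calc 2 ≤ 2 * k * (W + 1) := h1
      _ = (2 * k * (W + 1)) ^ 1 := (pow_one _).symm
      _ ≤ (2 * k * (W + 1)) ^ k := Nat.pow_le_pow_right (by omega) hk
  obtain ⟨D, -, hc⟩ := h _ hr
  let S : Set (Fin k → E D) := {y | ∀ i j, dist (y i) (y j) = dist (x i) (x j)}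
  have hfin : ∀ F : Finset (Fin k → E D), (↑F ⊆ S) →
      ∃ c : E D → Fin (numColours k W), ∀ y ∈ F, ¬ ∃ col, ∀ i, c (y i) = col := by
    intro F hF
    -- the columns of the copies in `F`
    let T : Finset (Fin k → ℝ) :=
      F.biUnion fun y => (univ : Finset (Fin D)).image fun q => fun i => y i q
    obtain ⟨φ, A, hA, hφ, hcert⟩ := certificate (fun i j => dist (x i) (x j) ^ 2) W hW hn i0 j0 h0 T
    obtain ⟨c, hc'⟩ := colouring_aux hk W D hW φ A hA hφ
    refine ⟨c, fun y hy => ?_⟩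
    have hcols : ∀ q, (fun i => y i q) ∈ T := by
      intro q
      exact mem_biUnion.mpr ⟨y, hy, mem_image.mpr ⟨q, mem_univ _, rfl⟩⟩
    have hD2 : ∀ i j, ∑ q, ((fun i => y i q) i - (fun i => y i q) j) ^ 2 = dist (x i) (x j) ^ 2 := by
      intro i j
      have h1 := hF hy i j
      rw [← h1, EuclideanSpace.dist_eq, Real.sq_sqrt (Finset.sum_nonneg fun _ _ => sq_nonneg _)]
      simp [Real.dist_eq, sq_abs]
    obtain ⟨h1, h2⟩ := hcert D (fun q i => y i q) hcols hD2
    exact hc' y h1 h2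
  obtain ⟨c, hcS⟩ := exists_colouring_of_finite S hfin
  obtain ⟨f, hf, col, hcol⟩ := hc c
  exact hcS f hf ⟨col, hcol⟩

end Vale.Agent.Lib.P058C
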